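import Vale.Agent.Lib.P154.FrameKS
import Vale.Agent.Lib.P154.FrameGW
import Vale.Agent.Lib.P154.Q3Cert
import Vale.Agent.Lib.P154.K4Cert
import Vale.Agent.Lib.P154.LN.Anti

/-!
# The reconstruction threshold for three- and four-state Potts channels on trees: for `q = 3` and
every admissible `lam`, and for `q = 4` and every `lam >= 0`, the Kesten-Stigum bound is exact on
every `d`-ary tree and on every Poisson Galton-Watson tree
-/

namespace Vale.Agent.Results.P154.PottsThreshold

open Vale.Agent.P154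

theorem not_both {a : ℕ → ℝ} (h1 : Reconstruction a) (h2 : Nonreconstruction a) : False := by
  obtain ⟨L, hL, hlim⟩ := h1
  have := tendsto_nhds_unique hlim h2
  linarith

theorem iffs {a : ℕ → ℝ} {t : ℝ} (R : 1 < t → Reconstruction a)
    (N : t ≤ 1 → Nonreconstruction a) :
    (Reconstruction a ↔ 1 < t) ∧ (Nonreconstruction a ↔ t ≤ 1) := by
  refine ⟨⟨fun h => ?_, R⟩, ⟨fun h => ?_, N⟩⟩
  · by_contra hc
    exact not_both h (N (not_lt.1 hc))
  · by_contra hc
    exact not_both (R (not_le.1 hc)) h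

theorem result :
    (∀ (q d : ℕ) (lam : ℝ), 2 ≤ d → (q = 3 ∧ -1 / 2 ≤ lam ∨ q = 4 ∧ 0 ≤ lam) → lam ≤ 1 →
      (Reconstruction (regA q d lam) ↔ 1 < (d : ℝ) * lam ^ 2) ∧
      (Nonreconstruction (regA q d lam) ↔ (d : ℝ) * lam ^ 2 ≤ 1)) ∧
    (∀ (q : ℕ) (d lam : ℝ), 0 < d → (q = 3 ∧ -1 / 2 ≤ lam ∨ q = 4 ∧ 0 ≤ lam) → lam ≤ 1 →
      (∀ n : ℕ, Summable (fun t : GWTree n => gwProb d n t * avgBias (gwLik q lam n t))) ∧
      (Reconstruction (gwA q d lam) ↔ 1 < d * lam ^ 2) ∧
      (Nonreconstruction (gwA q d lam) ↔ d * lam ^ 2 ≤ 1)) := by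
  constructor
  · intro q d lam hd hq h1
    rcases hq with ⟨rfl, h0⟩ | ⟨rfl, h0⟩
    · have hneg : -1 / (((3 : ℕ) : ℝ) - 1) ≤ lam := le_trans (by norm_num) h0
      refine iffs (fun h => reconstruction_reg (by norm_num) (by omega) hneg h1 h) (fun h => ?_)
      rcases le_total 0 lam with hl | hl
      · exact nonreconstruction_reg (by norm_num) hd hl h1 (Q3.cert3 hl h1) h
      · exact LN.nonrec_reg h0 hl h
    · have hneg : -1 / (((4 : ℕ) : ℝ) - 1) ≤ lam := le_trans (by norm_num) h0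
      exact iffs (fun h => reconstruction_reg (by norm_num) (by omega) hneg h1 h)
        (fun h => nonreconstruction_reg_K (by norm_num) hd h0 h1 (K4.cert4 h0 h1) h)
  · intro q d lam hd hq h1
    rcases hq with ⟨rfl, h0⟩ | ⟨rfl, h0⟩
    · have hneg : -1 / (((3 : ℕ) : ℝ) - 1) ≤ lam := le_trans (by norm_num) h0
      refine ⟨fun n => KS.gw_summable (by norm_num) hd hneg h1 n,
        iffs (fun h => reconstruction_gw (by norm_num) hd hneg h1 h) (fun h => ?_)⟩
      rcases le_total 0 lam with hl | hl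
      · exact nonreconstruction_gw (by norm_num) hd hl h1 (Q3.cert3 hl h1) h
      · exact LN.nonrec_gw hd h0 hl h
    · have hneg : -1 / (((4 : ℕ) : ℝ) - 1) ≤ lam := le_trans (by norm_num) h0
      exact ⟨fun n => KS.gw_summable (by norm_num) hd hneg h1 n,
        iffs (fun h => reconstruction_gw (by norm_num) hd hneg h1 h)
          (fun h => nonreconstruction_gw_K (by norm_num) hd h0 h1 (K4.cert4 h0 h1) h)⟩

end Vale.Agent.Results.P154.PottsThreshold
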