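import Vale.Agent.Lib.P154.PmfBridge
import Vale.Agent.Results.P154.PottsThreshold

/-!
# Three- and four-state Potts channels on trees: the Kesten-Stigum bound is exact (generative form)

The broadcasting process is a Mathlib `PMF` (`Pmf.data`): offspring law `N`, channel `K`.  Regular
trees (`N` = point mass at `m >= 2`) and Poisson Galton-Watson trees are two choices of `N`.
-/

namespace Vale.Agent.Results.P154.KestenStigumExact

open Vale.Agent.P154 Vale.Agent.P154.Pmf

/-- the Potts channel is a probability kernel -/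
theorem exists_channel (q : ℕ) (hq0 : 2 ≤ q) {lam : ℝ} (h0 : -1 / ((q : ℝ) - 1) ≤ lam)
    (h1 : lam ≤ 1) : ∃ K : Fin q → PMF (Fin q),
      ∀ i j, (K i j).toReal = lam * (if i = j then 1 else 0) + (1 - lam) / q := by
  have hq : (2 : ℝ) ≤ q := by exact_mod_cast hq0
  have hnn : ∀ i j : Fin q, 0 ≤ lam * (if i = j then 1 else 0) + (1 - lam) / q := by
    intro i j
    by_cases h : i = j
    · rw [if_pos h, mul_one]
      have h2 : lam + (1 - lam) / q = (1 + ((q : ℝ) - 1) * lam) / q := by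
        field_simp
        ring
      rw [h2]
      refine div_nonneg ?_ (by linarith)
      have h3 : (0 : ℝ) < (q : ℝ) - 1 := by linarith
      rw [div_le_iff₀ h3] at h0
      nlinarith
    · rw [if_neg h, mul_zero, zero_add]
      exact div_nonneg (by linarith) (by linarith)
  refine ⟨fun i => PMF.ofFintype
    (fun j => ENNReal.ofReal (lam * (if i = j then 1 else 0) + (1 - lam) / q)) ?_, ?_⟩
  · rw [← ENNReal.ofReal_sum_of_nonneg fun j _ => hnn i j, ← ENNReal.ofReal_one]
    congr 1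
    rw [Finset.sum_add_distrib, ← Finset.mul_sum, Finset.sum_ite_eq, if_pos (Finset.mem_univ i),
      Finset.sum_const, Finset.card_univ, Fintype.card_fin, nsmul_eq_mul]
    field_simp
    ring
  · intro i j
    rw [PMF.ofFintype_apply, ENNReal.toReal_ofReal (hnn i j)]

theorem result (q : ℕ) [NeZero q] (lam : ℝ)
    (hq : q = 3 ∧ -1 / 2 ≤ lam ∨ q = 4 ∧ 0 ≤ lam) (h1 : lam ≤ 1) :
    ∃ K : Fin q → PMF (Fin q),
      (∀ i j, (K i j).toReal = lam * (if i = j then 1 else 0) + (1 - lam) / q) ∧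
      ∀ (N : PMF ℕ) (d : ℝ),
        (∃ m : ℕ, 2 ≤ m ∧ d = m ∧ N = PMF.pure m) ∨
          (0 < d ∧ ∀ k : ℕ, (N k).toReal = Real.exp (-d) * d ^ k / (Nat.factorial k)) →
        (∀ n, Summable fun o => (seen N K n o).toReal * dev N K n o) ∧
        ((∃ L : ℝ, 0 < L ∧ Filter.Tendsto (a N K) Filter.atTop (nhds L)) ↔ 1 < d * lam ^ 2) ∧
        (Filter.Tendsto (a N K) Filter.atTop (nhds 0) ↔ d * lam ^ 2 ≤ 1) := by
  have hq2 : 2 ≤ q := by
    rcases hq with ⟨h, -⟩ | ⟨h, -⟩ <;> omega
  have h0 : -1 / ((q : ℝ) - 1) ≤ lam := by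
    rcases hq with ⟨rfl, h⟩ | ⟨rfl, h⟩
    · exact le_trans (by norm_num) h
    · exact le_trans (by norm_num) h
  obtain ⟨K, hK⟩ := exists_channel q hq2 h0 h1
  refine ⟨K, hK, ?_⟩
  rintro N d (⟨m, hm, rfl, rfl⟩ | ⟨hd, hN⟩)
  · have ha : a (PMF.pure m) K = regA q m lam := funext fun n => (a_reg hK m n).2
    obtain ⟨hR, hNr⟩ := PottsThreshold.result.1 q m lam hm hq h1
    rw [ha]
    exact ⟨fun n => (a_reg hK m n).1, hR, hNr⟩
  · obtain ⟨hs, hR, hNr⟩ :
        (∀ n : ℕ, Summable (fun t : GWTree n => gwProb d n t * avgBias (gwLik q lam n t))) ∧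
        (Reconstruction (gwA q d lam) ↔ 1 < d * lam ^ 2) ∧
        (Nonreconstruction (gwA q d lam) ↔ d * lam ^ 2 ≤ 1) := by
      have h := PottsThreshold.result.2 q d lam hd hq h1
      exact ⟨h.1, h.2.1, h.2.2⟩
    have ha : a N K = gwA q d lam := funext fun n => (a_gw hN hK n (hs n)).2
    rw [ha]
    exact ⟨fun n => (a_gw hN hK n (hs n)).1, hR, hNr⟩

end Vale.Agent.Results.P154.KestenStigumExact
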