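import Vale.Agent.Lib.P154.RvBridge
import Vale.Agent.Lib.P154.RvExist
import Vale.Agent.Results.P154.KestenStigumExact

/-!
# Three- and four-state Potts channels on trees: the reconstruction threshold, in terms of random
variables on an arbitrary probability space

`IsBroadcast μ q lam p k s` says that the random variables `k v` (numbers of children) and `s v`
(spins) form the broadcast process with offspring law `p`; `a μ k s n` is
`E[(1/2) ∑ i |Pr(root spin = i | data of level n) - 1/q|]`.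
The two tree models are the two choices of `p` in the hypothesis: exactly `m >= 2` children, or a
Poisson(`d`) number of children.
-/

namespace Vale.Agent.Results.P154.BroadcastThreshold

open MeasureTheory Filter Vale.Agent.P154 Vale.Agent.P154.Rv

universe u

/-- an offspring law as a probability mass function -/
theorem exists_pmf (p : ℕ → ℝ) (d : ℝ)
    (hp : (∃ m : ℕ, 2 ≤ m ∧ d = m ∧ ∀ j, p j = if j = m then 1 else 0) ∨
      (0 < d ∧ ∀ j, p j = Real.exp (-d) * d ^ j / (Nat.factorial j))) :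
    ∃ N : PMF ℕ, (∀ j, (N j).toReal = p j) ∧
      ((∃ m : ℕ, 2 ≤ m ∧ d = m ∧ N = PMF.pure m) ∨
        (0 < d ∧ ∀ j : ℕ, (N j).toReal = Real.exp (-d) * d ^ j / (Nat.factorial j))) := by
  rcases hp with ⟨m, hm, hd, hp⟩ | ⟨hd, hp⟩
  · refine ⟨PMF.pure m, fun j => ?_, Or.inl ⟨m, hm, hd, rfl⟩⟩
    rw [hp, PMF.pure_apply]
    split_ifs
    · exact ENNReal.toReal_one
    · exact ENNReal.toReal_zero
  · have hnn : ∀ j : ℕ, 0 ≤ Real.exp (-d) * d ^ j / (Nat.factorial j) := fun j => by positivity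
    have hs : HasSum (fun j : ℕ => Real.exp (-d) * d ^ j / (Nat.factorial j)) 1 :=
      ProbabilityTheory.hasSum_one_poissonMeasure ⟨d, hd.le⟩
    let N : PMF ℕ := ⟨fun j => ENNReal.ofReal (Real.exp (-d) * d ^ j / (Nat.factorial j)), by
      apply ENNReal.hasSum_coe.mpr
      rw [← Real.toNNReal_one]
      exact hs.toNNReal hnn⟩
    have hN : ∀ j, (N j).toReal = Real.exp (-d) * d ^ j / (Nat.factorial j) := fun j =>
      ENNReal.toReal_ofReal (hnn j)
    exact ⟨N, fun j => by rw [hN, hp], Or.inr ⟨hd, hN⟩⟩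

theorem result (q : ℕ) (lam : ℝ) (hq : q = 3 ∧ -1 / 2 ≤ lam ∨ q = 4 ∧ 0 ≤ lam) (h1 : lam ≤ 1)
    (p : ℕ → ℝ) (d : ℝ)
    (hp : (∃ m : ℕ, 2 ≤ m ∧ d = m ∧ ∀ j, p j = if j = m then 1 else 0) ∨
      (0 < d ∧ ∀ j, p j = Real.exp (-d) * d ^ j / (Nat.factorial j))) :
    (∃ (Ω : Type) (_ : MeasurableSpace Ω) (μ : Measure Ω) (k : List ℕ → Ω → ℕ)
      (s : List ℕ → Ω → Fin q), IsProbabilityMeasure μ ∧ IsBroadcast μ q lam p k s) ∧
    ∀ (Ω : Type u) [MeasurableSpace Ω] (μ : Measure Ω) [IsProbabilityMeasure μ]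
      (k : List ℕ → Ω → ℕ) (s : List ℕ → Ω → Fin q), IsBroadcast μ q lam p k s →
      ((∃ L : ℝ, 0 < L ∧ Tendsto (a μ k s) atTop (nhds L)) ↔ d * lam ^ 2 > 1) ∧
      (Tendsto (a μ k s) atTop (nhds 0) ↔ d * lam ^ 2 ≤ 1) := by
  have hq0 : NeZero q := by
    constructor
    rcases hq with ⟨h, -⟩ | ⟨h, -⟩ <;> omega
  obtain ⟨K, hK, hall⟩ := KestenStigumExact.result q lam hq h1
  obtain ⟨N, hN, hNd⟩ := exists_pmf p d hp
  refine ⟨⟨_, inferInstance, _, _, _, inferInstance, exists_broadcast hN hK⟩, ?_⟩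
  intro Ω _ μ _ k s h
  obtain ⟨-, h2, h3⟩ := hall N d hNd
  have ha : a μ k s = Pmf.a N K := funext fun n => a_eq h hN hK n
  rw [ha]
  exact ⟨h2, h3⟩

end Vale.Agent.Results.P154.BroadcastThreshold
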